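import Vale.Agent.P110.Count

/-!
The code of a nearly flat sign vector and the size of its fibres.
-/

open Complex Finset

namespace Vale.Agent.P110

/-- approximation of a polynomial on consecutive blocks of `N`-th roots of unity -/
def BlockApprox (N B : ℕ) (ζ : ℂ) (δ : ℝ) (e : Fin N → Bool) (slope : ℕ → ℂ) : Prop :=
  ∀ i : ℕ, ‖slope i‖ ≤ 12 ∧ ∀ s : ℝ, 0 ≤ s → s ≤ 7 * (B : ℝ) →
    ‖pol e (ζ ^ (i * B) * exp (I * s / N)) / (Real.sqrt N : ℂ)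
      - pol e (ζ ^ (i * B)) / (Real.sqrt N : ℂ) * exp (slope i * s)‖ ≤ 4 * δ

/-- rounded block parameters -/
noncomputable def codeOf (N B : ℕ) (ζ : ℂ) (d : ℝ) (e : Fin N → Bool) (slope : ℕ → ℂ) :
    Fin (N / B + 1) → (ℤ × ℤ) × (ℤ × ℤ) := fun i =>
  ((⌊(pol e (ζ ^ ((i : ℕ) * B)) / (Real.sqrt N : ℂ)).re / d⌋,
    ⌊(pol e (ζ ^ ((i : ℕ) * B)) / (Real.sqrt N : ℂ)).im / d⌋),
   (⌊(slope i).re / d⌋, ⌊(slope i).im / d⌋))

variable {N B : ℕ} {c δ d : ℝ} {ζ : ℂ}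

lemma Flat.value_le {e : Fin N → Bool} (he : Flat c e) (hN0 : 0 < N) (hc1 : c ≤ 1 / 2)
    {z : ℂ} (hz : ‖z‖ = 1) : ‖pol e z / (Real.sqrt N : ℂ)‖ ≤ 2 := by
  have hs : 0 < Real.sqrt N := Real.sqrt_pos.2 (by exact_mod_cast hN0)
  rw [norm_div, Complex.norm_real, Real.norm_eq_abs, abs_of_pos hs, div_le_iff₀ hs]
  nlinarith [(he.bounds hN0 hz).2]

lemma Flat.value_ge {e : Fin N → Bool} (he : Flat c e) (hN0 : 0 < N) (hc1 : c ≤ 1 / 2)
    {z : ℂ} (hz : ‖z‖ = 1) : 1 / 2 ≤ ‖pol e z / (Real.sqrt N : ℂ)‖ := by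
  have hs : 0 < Real.sqrt N := Real.sqrt_pos.2 (by exact_mod_cast hN0)
  rw [norm_div, Complex.norm_real, Real.norm_eq_abs, abs_of_pos hs, le_div_iff₀ hs]
  nlinarith [(he.bounds hN0 hz).1]

lemma codeOf_mem {e : Fin N → Bool} {slope : ℕ → ℂ} (he : Flat c e)
    (hb : BlockApprox N B ζ δ e slope) (hN0 : 0 < N) (hc1 : c ≤ 1 / 2) (hζn : ‖ζ‖ = 1)
    (hd0 : 0 < d) (hd1 : d ≤ 1) :
    codeOf N B ζ d e slope ∈ Fintype.piFinset (fun _ => paramBox d) := by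
  rw [Fintype.mem_piFinset]
  intro i
  have h1 := he.value_le hN0 hc1 (z := ζ ^ ((i : ℕ) * B)) (by simp [hζn])
  have h2 := (hb i).1
  simp only [paramBox, codeOf, mem_product]
  exact ⟨⟨floor_mem_box hd0 hd1 ((Complex.abs_re_le_norm _).trans (by linarith)),
      floor_mem_box hd0 hd1 ((Complex.abs_im_le_norm _).trans (by linarith))⟩,
    ⟨floor_mem_box hd0 hd1 ((Complex.abs_re_le_norm _).trans h2),
      floor_mem_box hd0 hd1 ((Complex.abs_im_le_norm _).trans h2)⟩⟩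

lemma code_pointwise {e e' : Fin N → Bool} {sl sl' : ℕ → ℂ} (he : Flat c e)
    (hb : BlockApprox N B ζ δ e sl) (hb' : BlockApprox N B ζ δ e' sl')
    (hcode : codeOf N B ζ d e sl = codeOf N B ζ d e' sl')
    (hN0 : 0 < N) (hB : 0 < B) (hc1 : c ≤ 1 / 2) (hζn : ‖ζ‖ = 1)
    (hζpow : ∀ m : ℕ, ζ ^ m = exp (I * ((2 * Real.pi * m : ℝ) : ℂ) / N))
    (hδ : 0 ≤ δ) (hδ8 : δ ≤ 1 / 8) (hd0 : 0 < d) (hdδ : d ≤ δ / 7)
    (hdT : d * (7 * (B : ℝ)) = δ) {j : ℕ} (hjN : j < N) :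
    ‖pol e (ζ ^ j) / (Real.sqrt N : ℂ) - pol e' (ζ ^ j) / (Real.sqrt N : ℂ)‖ ≤ 30 * δ := by
  have hi : j / B < N / B + 1 := Nat.lt_succ_of_le (Nat.div_le_div_right hjN.le)
  have hc2 := congrFun hcode ⟨j / B, hi⟩
  simp only [codeOf, Prod.mk.injEq] at hc2
  obtain ⟨⟨hv1, hv2⟩, hb1, hb2⟩ := hc2
  have hv := close_of_floor_eq hd0 hv1 hv2
  have hbb := close_of_floor_eq hd0 hb1 hb2
  have hs0 : 0 ≤ 2 * Real.pi * ((j % B : ℕ) : ℝ) := by positivity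
  have hsT : 2 * Real.pi * ((j % B : ℕ) : ℝ) ≤ 7 * (B : ℝ) := by
    have hmod : ((j % B : ℕ) : ℝ) ≤ B := by exact_mod_cast (Nat.mod_lt j hB).le
    nlinarith [Real.pi_pos, Real.pi_lt_d2]
  have hzj : ζ ^ (j / B * B) * exp (I * ((2 * Real.pi * ((j % B : ℕ) : ℝ) : ℝ) : ℂ) / N)
      = ζ ^ j := by
    rw [← hζpow (j % B), ← pow_add, Nat.div_add_mod']
  have k1 := (hb (j / B)).2 _ hs0 hsT
  have k2 := (hb' (j / B)).2 _ hs0 hsT
  rw [hzj] at k1 k2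
  exact pair_close hδ8 hδ hdδ hd0.le hdT hs0 hsT k1 k2
    (he.value_le hN0 hc1 (by simp [hζn])) (he.value_ge hN0 hc1 (by simp [hζn])) hv hbb

lemma hamming_of_pointwise {e e' : Fin N → Bool} {ρ : ℝ} (hN0 : 0 < N)
    (hζ : IsPrimitiveRoot ζ N) (hζn : ‖ζ‖ = 1) (hρ : 225 * δ ^ 2 ≤ ρ)
    (h : ∀ j < N,
      ‖pol e (ζ ^ j) / (Real.sqrt N : ℂ) - pol e' (ζ ^ j) / (Real.sqrt N : ℂ)‖ ≤ 30 * δ) :
    ((univ.filter fun k => e k ≠ e' k).card : ℝ) ≤ ρ * N := by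
  have hs : 0 < Real.sqrt N := Real.sqrt_pos.2 (by exact_mod_cast hN0)
  have hsum := sum_roots_sq hζ hζn (fun k => sg (e k) - sg (e' k))
  have hle : (N : ℝ) * ∑ k, ‖sg (e k) - sg (e' k)‖ ^ 2
      ≤ ∑ j ∈ range N, (30 * δ * Real.sqrt N) ^ 2 := by
    rw [← hsum]
    refine sum_le_sum fun j hj => pow_le_pow_left₀ (norm_nonneg _) ?_ 2
    have h1 := h j (mem_range.1 hj)
    rw [← sub_div, norm_div, Complex.norm_real, Real.norm_eq_abs, abs_of_pos hs,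
      div_le_iff₀ hs] at h1
    simpa [pol, sub_mul, sum_sub_distrib] using h1
  simp only [sg_diff_sq, ← sum_filter, sum_const, nsmul_eq_mul, card_range, mul_pow,
    Real.sq_sqrt (Nat.cast_nonneg (α := ℝ) N)] at hle
  have hNR : (0 : ℝ) < N := by exact_mod_cast hN0
  have h8 := le_of_mul_le_mul_left hle hNR
  nlinarith

lemma flat_count {ρ : ℝ} (hN0 : 0 < N) (hB : 0 < B) (hc1 : c ≤ 1 / 2)
    (hζ : IsPrimitiveRoot ζ N) (hζn : ‖ζ‖ = 1)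
    (hζpow : ∀ m : ℕ, ζ ^ m = exp (I * ((2 * Real.pi * m : ℝ) : ℂ) / N))
    (hδ : 0 ≤ δ) (hδ8 : δ ≤ 1 / 8) (hd0 : 0 < d) (hdδ : d ≤ δ / 7)
    (hdT : d * (7 * (B : ℝ)) = δ) (hρ : 225 * δ ^ 2 ≤ ρ)
    (S : Finset (Fin N → Bool)) (hS : ∀ e ∈ S, Flat c e)
    (hblock : ∀ e ∈ S, ∃ sl, BlockApprox N B ζ δ e sl) :
    S.card ≤ ((univ : Finset (Finset (Fin N))).filter
        fun s => (s.card : ℝ) ≤ ρ * Fintype.card (Fin N)).card
      * (paramBox d).card ^ (N / B + 1) := by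
  classical
  have hex : ∀ e, ∃ sl, e ∈ S → BlockApprox N B ζ δ e sl := by
    intro e
    by_cases he : e ∈ S
    · obtain ⟨sl, hsl⟩ := hblock e he
      exact ⟨sl, fun _ => hsl⟩
    · exact ⟨fun _ => 0, fun h => absurd h he⟩
  choose sl hsl using hex
  have hd1 : d ≤ 1 := by linarith
  have himg : (S.image fun e => codeOf N B ζ d e (sl e)).card
      ≤ (paramBox d).card ^ (N / B + 1) := by
    have hsub : (S.image fun e => codeOf N B ζ d e (sl e))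
        ⊆ Fintype.piFinset (fun _ => paramBox d) := by
      intro f hf
      obtain ⟨e, he, rfl⟩ := mem_image.1 hf
      exact codeOf_mem (hS e he) (hsl e he) hN0 hc1 hζn hd0 hd1
    refine (card_le_card hsub).trans ?_
    rw [Fintype.card_piFinset]
    simp
  refine (card_le_mul_card_image S _ ?_).trans (Nat.mul_le_mul_left _ himg)
  intro f hf
  obtain ⟨e₀, he₀, rfl⟩ := mem_image.1 hf
  refine card_le_card_of_injOn (fun e => univ.filter fun k => e k ≠ e₀ k) ?_ ?_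
  · intro e he
    obtain ⟨he1, he2⟩ := mem_filter.1 he
    simp only [coe_filter, mem_univ, true_and, Set.mem_ofPred_eq, Fintype.card_fin]
    exact hamming_of_pointwise hN0 hζ hζn hρ fun j hj =>
      code_pointwise (hS e he1) (hsl e he1) (hsl e₀ he₀) he2 hN0 hB hc1 hζn hζpow
        hδ hδ8 hd0 hdδ hdT hj
  · intro e _ e' _ h
    funext k
    have h' := Finset.ext_iff.1 h k
    simp only [mem_filter, mem_univ, true_and] at h'
    revert h'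
    cases e k <;> cases e' k <;> cases e₀ k <;> simp

end Vale.Agent.P110
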