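import Vale.Agent.P110.Flat

/-!
Counting part: nearly flat sign vectors are described by few parameters up to a small
Hamming ball.
-/

open Complex Finset

namespace Vale.Agent.P110

lemma sum_roots_sq {N : ℕ} {ζ : ℂ} (hζ : IsPrimitiveRoot ζ N) (hn : ‖ζ‖ = 1)
    (d : Fin N → ℂ) :
    ∑ j ∈ range N, ‖∑ k, d k * (ζ ^ j) ^ (k : ℕ)‖ ^ 2 = (N : ℝ) * ∑ k, ‖d k‖ ^ 2 := by
  have hz : ζ ≠ 0 := by intro h; simp [h] at hn
  have key : ∀ k l : Fin N,
      ∑ j ∈ range N, (ζ ^ j) ^ (k : ℕ) * (starRingEnd ℂ) ((ζ ^ j) ^ (l : ℕ))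
        = if k = l then (N : ℂ) else 0 := by
    intro k l
    have hterm : ∀ j : ℕ, (ζ ^ j) ^ (k : ℕ) * (starRingEnd ℂ) ((ζ ^ j) ^ (l : ℕ))
        = (ζ ^ (k : ℕ) / ζ ^ (l : ℕ)) ^ j := by
      intro j
      rw [map_pow, map_pow, ← Complex.inv_eq_conj hn, inv_pow, inv_pow, div_pow, ← pow_mul,
        ← pow_mul, ← pow_mul, ← pow_mul, mul_comm j (k : ℕ), mul_comm j (l : ℕ), div_eq_mul_inv]
    simp only [hterm]
    split_ifs with hkl
    · subst hkl; simp [hz]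
    · have hne : ζ ^ (k : ℕ) / ζ ^ (l : ℕ) ≠ 1 := by
        intro h
        rw [div_eq_one_iff_eq (pow_ne_zero _ hz)] at h
        exact hkl (Fin.ext (hζ.pow_inj k.isLt l.isLt h))
      rw [geom_sum_eq hne]
      have hp : ∀ m : ℕ, (ζ ^ m) ^ N = 1 := fun m => by
        rw [← pow_mul, mul_comm, pow_mul, hζ.pow_eq_one, one_pow]
      simp [div_pow, hp]
  have hC : ((∑ j ∈ range N, ‖∑ k, d k * (ζ ^ j) ^ (k : ℕ)‖ ^ 2 : ℝ) : ℂ)
      = (((N : ℝ) * ∑ k, ‖d k‖ ^ 2 : ℝ) : ℂ) := by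
    push_cast
    calc ∑ j ∈ range N, (‖∑ k, d k * (ζ ^ j) ^ (k : ℕ)‖ : ℂ) ^ 2
        = ∑ j ∈ range N, ∑ k, ∑ l, d k * (starRingEnd ℂ) (d l)
            * ((ζ ^ j) ^ (k : ℕ) * (starRingEnd ℂ) ((ζ ^ j) ^ (l : ℕ))) := by
          refine sum_congr rfl fun j _ => ?_
          rw [← Complex.mul_conj', map_sum, sum_mul_sum]
          simp only [map_mul]
          refine sum_congr rfl fun k _ => sum_congr rfl fun l _ => ?_
          ring
      _ = ∑ k, ∑ l, d k * (starRingEnd ℂ) (d l) * (if k = l then (N : ℂ) else 0) := by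
          rw [Finset.sum_comm]
          refine sum_congr rfl fun k _ => ?_
          rw [Finset.sum_comm]
          refine sum_congr rfl fun l _ => ?_
          rw [← mul_sum, key]
      _ = (N : ℂ) * ∑ k, (‖d k‖ : ℂ) ^ 2 := by
          simp only [mul_ite, mul_zero, Finset.sum_ite_eq, Finset.mem_univ, if_true, mul_sum]
          refine sum_congr rfl fun k _ => ?_
          rw [← Complex.mul_conj']; ring
  exact_mod_cast hC

lemma ball_count {α : Type*} [Fintype α] [DecidableEq α] {t ρ : ℝ} (ht0 : 0 < t) (ht1 : t ≤ 1)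
    (hρ : 0 ≤ ρ) :
    (((univ : Finset (Finset α)).filter fun s => (s.card : ℝ) ≤ ρ * Fintype.card α).card : ℝ)
      ≤ Real.exp (Fintype.card α * (t + ρ * (-Real.log t))) := by
  set n : ℝ := (Fintype.card α : ℝ) with hn
  set F := ((univ : Finset (Finset α)).filter fun s => (s.card : ℝ) ≤ ρ * n)
  have hlog : Real.log t ≤ 0 := Real.log_nonpos ht0.le ht1
  have h1 : (F.card : ℝ) * Real.exp (ρ * n * Real.log t) ≤ Real.exp (n * t) := by
    calc (F.card : ℝ) * Real.exp (ρ * n * Real.log t)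
        = ∑ _s ∈ F, Real.exp (ρ * n * Real.log t) := by simp
      _ ≤ ∑ s ∈ F, t ^ s.card := by
          refine sum_le_sum fun s hs => ?_
          rw [← Real.exp_log (pow_pos ht0 s.card), Real.log_pow]
          exact Real.exp_le_exp.2
            (mul_le_mul_of_nonpos_right (by simpa [F] using hs) hlog)
      _ ≤ ∑ s : Finset α, t ^ s.card :=
          sum_le_sum_of_subset_of_nonneg (subset_univ _) fun _ _ _ => by positivity
      _ = (t + 1) ^ Fintype.card α := by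
          rw [← Fintype.sum_pow_mul_eq_add_pow α t 1]; simp
      _ ≤ Real.exp (n * t) := by
          rw [Real.exp_nat_mul]
          exact pow_le_pow_left₀ (by linarith) (by linarith [Real.add_one_le_exp t]) _
  rw [← le_div_iff₀ (Real.exp_pos _), ← Real.exp_sub] at h1
  refine h1.trans_eq ?_
  congr 1; ring

lemma sg_diff_sq (a b : Bool) : ‖sg a - sg b‖ ^ 2 = if a ≠ b then 4 else 0 := by
  cases a <;> cases b <;> norm_num [sg]

lemma close_of_floor_eq {x y : ℂ} {δ : ℝ} (hδ : 0 < δ)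
    (h1 : ⌊x.re / δ⌋ = ⌊y.re / δ⌋) (h2 : ⌊x.im / δ⌋ = ⌊y.im / δ⌋) : ‖x - y‖ ≤ 2 * δ := by
  have k1 := Int.abs_sub_lt_one_of_floor_eq_floor h1
  have k2 := Int.abs_sub_lt_one_of_floor_eq_floor h2
  rw [div_sub_div_same, abs_div, abs_of_pos hδ, div_lt_one hδ] at k1 k2
  refine (Complex.norm_le_abs_re_add_abs_im _).trans ?_
  simp only [Complex.sub_re, Complex.sub_im]
  linarith

lemma floor_mem_box {r δ : ℝ} (hδ : 0 < δ) (hδ1 : δ ≤ 1) (hr : |r| ≤ 12) :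
    ⌊r / δ⌋ ∈ Icc (-(⌈13 / δ⌉)) ⌈13 / δ⌉ := by
  have h1 : |r / δ| ≤ 12 / δ := by rw [abs_div, abs_of_pos hδ]; gcongr
  have h2 := Int.le_ceil (13 / δ)
  have h3 : 1 ≤ 1 / δ := by rw [le_div_iff₀ hδ]; linarith
  have h4 : 13 / δ = 12 / δ + 1 / δ := by ring
  have h5 := Int.floor_le (r / δ)
  have h6 := Int.lt_floor_add_one (r / δ)
  have h7 := abs_le.1 h1
  rw [mem_Icc]
  constructor
  · exact_mod_cast (show -((⌈13 / δ⌉ : ℤ) : ℝ) ≤ ⌊r / δ⌋ by linarith)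
  · exact_mod_cast (show ((⌊r / δ⌋ : ℤ) : ℝ) ≤ (⌈13 / δ⌉ : ℤ) by linarith)

/-- the box of rounded parameters -/
noncomputable def paramBox (δ : ℝ) : Finset ((ℤ × ℤ) × (ℤ × ℤ)) :=
  (Icc (-(⌈13 / δ⌉)) ⌈13 / δ⌉ ×ˢ Icc (-(⌈13 / δ⌉)) ⌈13 / δ⌉) ×ˢ
    (Icc (-(⌈13 / δ⌉)) ⌈13 / δ⌉ ×ˢ Icc (-(⌈13 / δ⌉)) ⌈13 / δ⌉)

lemma paramBox_card {δ : ℝ} (hδ : 0 < δ) (hδ1 : δ ≤ 1) : ((paramBox δ).card : ℝ) ≤ (30 / δ) ^ 4 := by
  have hA : (0 : ℤ) ≤ ⌈13 / δ⌉ := Int.ceil_nonneg (by positivity)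
  have h1 : ((Icc (-(⌈13 / δ⌉)) ⌈13 / δ⌉).card : ℝ) ≤ 30 / δ := by
    rw [Int.card_Icc]
    have h2 := Int.ceil_lt_add_one (13 / δ)
    have h3 : 1 ≤ 1 / δ := by rw [le_div_iff₀ hδ]; linarith
    have h5 : ((⌈13 / δ⌉ + 1 - -⌈13 / δ⌉).toNat : ℤ) = 2 * ⌈13 / δ⌉ + 1 := by omega
    have h6 : (((⌈13 / δ⌉ + 1 - -⌈13 / δ⌉).toNat : ℕ) : ℝ) = 2 * (⌈13 / δ⌉ : ℤ) + 1 := by
      exact_mod_cast h5
    rw [h6]
    have e1 : 13 / δ = 13 * (1 / δ) := by ring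
    have e2 : 30 / δ = 30 * (1 / δ) := by ring
    linarith
  unfold paramBox
  simp only [card_product, Nat.cast_mul]
  calc _ ≤ (30 / δ * (30 / δ)) * (30 / δ * (30 / δ)) := by gcongr
    _ = _ := by ring

/-- two approximate exponentials with nearby parameters are close -/
lemma pair_close {u u' v v' b b' : ℂ} {s δ d T : ℝ} (hδ : δ ≤ 1 / 8) (hδ0 : 0 ≤ δ)
    (hdδ : d ≤ δ / 7) (hd : 0 ≤ d) (hdT : d * T = δ) (hs0 : 0 ≤ s) (hsT : s ≤ T)
    (k1 : ‖u - v * exp (b * s)‖ ≤ 4 * δ) (k2 : ‖u' - v' * exp (b' * s)‖ ≤ 4 * δ)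
    (hu : ‖u‖ ≤ 2) (hv0 : 1 / 2 ≤ ‖v‖) (hv : ‖v - v'‖ ≤ 2 * d) (hb : ‖b - b'‖ ≤ 2 * d) :
    ‖u - u'‖ ≤ 30 * δ := by
  have hve : ‖v * exp (b * s)‖ ≤ 3 := by
    linarith [norm_le_norm_add_norm_sub u (v * exp (b * s))]
  have hexp : ‖exp (b * s)‖ ≤ 6 := by
    rw [norm_mul] at hve
    nlinarith [norm_nonneg (exp (b * s))]
  have hx : ‖(b' - b) * s‖ ≤ 2 * δ := by
    rw [norm_mul, Complex.norm_real, Real.norm_eq_abs, abs_of_nonneg hs0]
    calc ‖b' - b‖ * s ≤ (2 * d) * T :=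
          mul_le_mul (by rwa [norm_sub_rev]) hsT hs0 (by positivity)
      _ = _ := by linarith
  have hx2 : ‖exp ((b' - b) * s) - 1‖ ≤ 4 * δ :=
    (Complex.norm_exp_sub_one_le (by linarith)).trans (by linarith)
  have he1 : v' * exp (b' * s) - v * exp (b * s)
      = (v * exp (b * s)) * (exp ((b' - b) * s) - 1)
        + (v' - v) * (exp (b * s) * exp ((b' - b) * s)) := by
    have : exp (b' * s) = exp (b * s) * exp ((b' - b) * s) := by
      rw [← Complex.exp_add]; ring_nf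
    rw [this]; ring
  have h2 : ‖v' * exp (b' * s) - v * exp (b * s)‖ ≤ 22 * δ := by
    rw [he1]
    refine (norm_add_le _ _).trans ?_
    rw [norm_mul (v * exp (b * s)), norm_mul (v' - v), norm_mul (exp (b * s))]
    have h3 : ‖exp ((b' - b) * s)‖ ≤ 2 := by
      linarith [norm_le_norm_add_norm_sub (1 : ℂ) (exp ((b' - b) * s)),
        norm_sub_rev (1 : ℂ) (exp ((b' - b) * s)), norm_one (α := ℂ)]
    have h4 : ‖v' - v‖ * (‖exp (b * s)‖ * ‖exp ((b' - b) * s)‖) ≤ (2 * d) * (6 * 2) :=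
      mul_le_mul (by rwa [norm_sub_rev]) (mul_le_mul hexp h3 (norm_nonneg _) (by norm_num))
        (by positivity) (by positivity)
    have h5 : ‖v * exp (b * s)‖ * ‖exp ((b' - b) * s) - 1‖ ≤ 3 * (4 * δ) :=
      mul_le_mul hve hx2 (norm_nonneg _) (by norm_num)
    linarith
  have h6 : u - u' = (u - v * exp (b * s)) - (u' - v' * exp (b' * s))
      - (v' * exp (b' * s) - v * exp (b * s)) := by ring
  rw [h6]
  linarith [norm_sub_le ((u - v * exp (b * s)) - (u' - v' * exp (b' * s)))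
      (v' * exp (b' * s) - v * exp (b * s)),
    norm_sub_le (u - v * exp (b * s)) (u' - v' * exp (b' * s))]

end Vale.Agent.P110
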