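import Mathlib

/-!
Analytic part: a nearly flat polynomial with real sign coefficients is, on arcs of
length much smaller than `Y / N`, close to an exponential.
-/

open Complex Metric Finset

namespace Vale.Agent.P110

/-- sign of a bit -/
def sg (b : Bool) : ℂ := if b then 1 else -1

/-- the polynomial of a bit vector -/
noncomputable def pol {N : ℕ} (e : Fin N → Bool) (z : ℂ) : ℂ := ∑ k, sg (e k) * z ^ (k : ℕ)

/-- flatness with tolerance `c` -/
def Flat {N : ℕ} (c : ℝ) (e : Fin N → Bool) : Prop :=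
  ∀ z : ℂ, ‖z‖ = 1 → |‖pol e z‖ / Real.sqrt N - 1| ≤ c

lemma differentiable_pol {N : ℕ} (e : Fin N → Bool) : Differentiable ℂ (pol e) := by
  unfold pol; fun_prop

lemma conj_sg (b : Bool) : (starRingEnd ℂ) (sg b) = sg b := by
  cases b <;> simp [sg]

lemma pol_rev {N : ℕ} (e : Fin N → Bool) {z : ℂ} (hz : z ≠ 0) :
    pol (e ∘ Fin.rev) z = z ^ (N - 1) * pol e z⁻¹ := by
  unfold pol
  rw [mul_sum]
  refine Fintype.sum_equiv Fin.revPerm _ _ fun k => ?_
  have hk := k.isLt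
  simp only [Function.comp_apply, Fin.revPerm_apply, Fin.val_rev]
  rw [show (k : ℕ) = (N - 1) - (N - (k + 1)) by omega, pow_sub₀ _ hz (by omega), inv_pow]
  rw [show N - 1 - (N - ((k : ℕ) + 1)) = k by omega]
  ring

lemma pol_rev_circle {N : ℕ} (e : Fin N → Bool) {z : ℂ} (hz : ‖z‖ = 1) :
    pol (e ∘ Fin.rev) z = z ^ (N - 1) * (starRingEnd ℂ) (pol e z) := by
  have h0 : z ≠ 0 := by intro h; simp [h] at hz
  rw [pol_rev e h0]
  congr 1
  simp [pol, map_sum, map_mul, map_pow, conj_sg, Complex.inv_eq_conj hz]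

lemma norm_le_circle {q : ℂ → ℂ} (hq : Differentiable ℂ q) {C : ℝ}
    (h : ∀ z, ‖z‖ = 1 → ‖q z‖ ≤ C) {z : ℂ} (hz : ‖z‖ ≤ 1) : ‖q z‖ ≤ C := by
  refine Complex.norm_le_of_forall_mem_frontier_norm_le (U := ball (0 : ℂ) 1) isBounded_ball
    hq.diffContOnCl ?_ ?_
  · intro w hw
    rw [frontier_ball (0 : ℂ) one_ne_zero] at hw
    exact h w (by simpa using hw)
  · rw [closure_ball (0 : ℂ) one_ne_zero]
    simpa using hz

section flat

variable {N : ℕ} {c Y : ℝ} {e : Fin N → Bool}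

lemma Flat.bounds (h : Flat c e) (hN : 0 < N) {z : ℂ} (hz : ‖z‖ = 1) :
    (1 - c) * Real.sqrt N ≤ ‖pol e z‖ ∧ ‖pol e z‖ ≤ (1 + c) * Real.sqrt N := by
  have hs : 0 < Real.sqrt N := Real.sqrt_pos.2 (by exact_mod_cast hN)
  have := abs_le.1 (h z hz)
  constructor
  · rw [← le_div_iff₀ hs]; linarith
  · rw [← div_le_iff₀ hs]; linarith

lemma Flat.rev (h : Flat c e) : Flat c (e ∘ Fin.rev) := by
  intro z hz
  rw [pol_rev_circle e hz]
  simpa [hz] using h z hz

lemma Flat.inner_ne (h : Flat c e) (hN : 0 < N) (_hY : 0 ≤ Y) (hc0 : 0 ≤ c) (hc1 : c ≤ 1)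
    (hcY : 3 * c < Real.exp (-Y)) {z : ℂ} (hz1 : ‖z‖ ≤ 1) (hzY : Real.exp (-Y) ≤ ‖z‖ ^ N) :
    pol e z ≠ 0 := by
  have hq : ∀ w : ℂ, ‖w‖ = 1 →
      ‖pol e w * pol (e ∘ Fin.rev) w - (N : ℂ) * w ^ (N - 1)‖ ≤ 3 * c * N := by
    intro w hw
    rw [pol_rev_circle e hw]
    have : pol e w * (w ^ (N - 1) * (starRingEnd ℂ) (pol e w)) - (N : ℂ) * w ^ (N - 1)
        = w ^ (N - 1) * (((‖pol e w‖ ^ 2 - N : ℝ) : ℂ)) := by
      rw [mul_left_comm, Complex.mul_conj, Complex.normSq_eq_norm_sq]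
      push_cast; ring
    rw [this, norm_mul, norm_pow, hw, one_pow, one_mul, Complex.norm_real, Real.norm_eq_abs]
    obtain ⟨hl, hu⟩ := h.bounds hN hw
    have hs := Real.sq_sqrt (Nat.cast_nonneg (α := ℝ) N)
    have h1 : 0 ≤ (1 - c) * Real.sqrt N := mul_nonneg (by linarith) (Real.sqrt_nonneg _)
    rw [abs_le]
    constructor
    · nlinarith [mul_self_le_mul_self h1 hl]
    · nlinarith [mul_self_le_mul_self (norm_nonneg (pol e w)) hu]
  have hd : Differentiable ℂ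
      (fun w => pol e w * pol (e ∘ Fin.rev) w - (N : ℂ) * w ^ (N - 1)) :=
    ((differentiable_pol e).mul (differentiable_pol _)).sub
      ((differentiable_id.pow _).const_mul _)
  have hb := norm_le_circle hd hq hz1
  intro hzero
  simp only [hzero, zero_mul, zero_sub, norm_neg, norm_mul, Complex.norm_natCast, norm_pow] at hb
  have h2 : ‖z‖ ^ N ≤ ‖z‖ ^ (N - 1) := pow_le_pow_of_le_one (norm_nonneg _) hz1 (Nat.sub_le _ _)
  have h3 : (0 : ℝ) < N := by exact_mod_cast hN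
  nlinarith

lemma Flat.strip (h : Flat c e) (hN : 0 < N) (hY : 0 ≤ Y) (hc0 : 0 ≤ c) (hc1 : c ≤ 1)
    (hcY : 3 * c < Real.exp (-Y)) {z : ℂ} (hlo : Real.exp (-Y) ≤ ‖z‖ ^ N)
    (hhi : ‖z‖ ^ N ≤ Real.exp Y) :
    pol e z ≠ 0 ∧ ‖pol e z‖ ≤ 2 * Real.sqrt N * Real.exp Y := by
  have hs := Real.sqrt_nonneg (N : ℝ)
  have hb : ∀ {e' : Fin N → Bool}, Flat c e' → ∀ {w : ℂ}, ‖w‖ ≤ 1 →
      ‖pol e' w‖ ≤ 2 * Real.sqrt N := fun {e'} h' {w} hw => by
    refine norm_le_circle (differentiable_pol _) (fun x hx => ?_) hw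
    nlinarith [(h'.bounds hN hx).2]
  rcases le_total ‖z‖ 1 with h1 | h1
  · refine ⟨h.inner_ne hN hY hc0 hc1 hcY h1 hlo, (hb h h1).trans ?_⟩
    nlinarith [Real.one_le_exp hY]
  · have hz : z ≠ 0 := by intro h'; simp [h'] at h1; linarith
    have hwi : ‖z⁻¹‖ ≤ 1 := by rw [norm_inv]; exact inv_le_one_of_one_le₀ h1
    have hrew : pol e z = z ^ (N - 1) * pol (e ∘ Fin.rev) z⁻¹ := by
      rw [pol_rev e (inv_ne_zero hz), inv_inv, ← mul_assoc, ← mul_pow, mul_inv_cancel₀ hz,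
        one_pow, one_mul]
    have hlo' : Real.exp (-Y) ≤ ‖z⁻¹‖ ^ N := by
      rw [norm_inv, inv_pow, Real.exp_neg]
      exact inv_anti₀ (by positivity) hhi
    constructor
    · rw [hrew]
      exact mul_ne_zero (pow_ne_zero _ hz) (h.rev.inner_ne hN hY hc0 hc1 hcY hwi hlo')
    · rw [hrew, norm_mul, norm_pow]
      have h2 : ‖z‖ ^ (N - 1) ≤ Real.exp Y :=
        (pow_le_pow_right₀ h1 (Nat.sub_le _ _)).trans hhi
      calc ‖z‖ ^ (N - 1) * ‖pol (e ∘ Fin.rev) z⁻¹‖ ≤ Real.exp Y * (2 * Real.sqrt N) :=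
            mul_le_mul h2 (hb h.rev hwi) (norm_nonneg _) (Real.exp_nonneg _)
        _ = _ := by ring

end flat

/-- A zero-free function of bounded growth on a large disc is exponential near the centre. -/
lemma exists_slope {f : ℂ → ℂ} {Y : ℝ} (hY : 1 ≤ Y) (hf : DifferentiableOn ℂ f (ball 0 Y))
    (h0 : ∀ w ∈ ball (0 : ℂ) Y, f w ≠ 0) (hb : ∀ w ∈ ball (0 : ℂ) Y, ‖f w‖ ≤ Real.exp (2 * Y))
    (hc : 1 / 2 ≤ ‖f 0‖) :
    ∃ b : ℂ, ‖b‖ ≤ 12 ∧ ∀ w ∈ ball (0 : ℂ) (Y / 2),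
      ∃ r : ℂ, ‖r‖ ≤ 48 * ‖w‖ ^ 2 / Y ∧ f w = f 0 * exp (b * w + r) := by
  have hY0 : 0 < Y := by linarith
  have hm : (0 : ℂ) ∈ ball (0 : ℂ) Y := mem_ball_self hY0
  have hd : DifferentiableOn ℂ (fun w => deriv f w / f w) (ball 0 Y) :=
    (hf.deriv isOpen_ball).div hf h0
  obtain ⟨G, hG⟩ := hd.isExactOn_ball
  let g : ℂ → ℂ := fun w => G w - G 0
  have hg : ∀ w ∈ ball (0 : ℂ) Y, HasDerivAt g (deriv f w / f w) w :=
    fun w hw => (hG w hw).sub_const _
  have hg0 : g 0 = 0 := by simp [g]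
  have hconst : ∀ w ∈ ball (0 : ℂ) Y, f w * exp (-g w) = f 0 := by
    intro w hw
    have hderiv : ∀ x ∈ ball (0 : ℂ) Y, HasDerivAt (fun x => f x * exp (-g x)) 0 x := by
      intro x hx
      have h1 : HasDerivAt f (deriv f x) x :=
        ((hf x hx).differentiableAt (isOpen_ball.mem_nhds hx)).hasDerivAt
      refine (h1.mul (hg x hx).neg.cexp).congr_deriv ?_
      have := h0 x hx
      simp only [Pi.neg_apply]
      field_simp
      ring
    have := isOpen_ball.is_const_of_deriv_eq_zero (convex_ball (0 : ℂ) Y).isPreconnected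
      (fun x hx => (hderiv x hx).differentiableAt.differentiableWithinAt)
      (fun x hx => (hderiv x hx).deriv) hw hm
    simpa [hg0] using this
  have hfe : ∀ w ∈ ball (0 : ℂ) Y, f w = f 0 * exp (g w) := by
    intro w hw
    rw [← hconst w hw, mul_assoc, ← Complex.exp_add, neg_add_cancel, Complex.exp_zero, mul_one]
  have hre : Set.MapsTo g (ball (0 : ℂ) Y) {z | z.re ≤ 3 * Y} := by
    intro w hw
    have h1 := hb w hw
    rw [hfe w hw, norm_mul, Complex.norm_exp] at h1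
    have h2 : Real.exp (g w).re ≤ Real.exp 1 * Real.exp (2 * Y) := by
      have h3 : (1 / 2 : ℝ) * Real.exp (g w).re ≤ Real.exp (2 * Y) :=
        le_trans (mul_le_mul_of_nonneg_right hc (Real.exp_nonneg _)) h1
      have h4 : (2 : ℝ) ≤ Real.exp 1 := by linarith [Real.add_one_le_exp (1 : ℝ)]
      nlinarith [Real.exp_pos (2 * Y)]
    rw [← Real.exp_add, Real.exp_le_exp] at h2
    simp only [Set.mem_ofPred_eq]
    linarith
  have hgd : DifferentiableOn ℂ g (ball 0 Y) :=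
    fun w hw => (hg w hw).differentiableAt.differentiableWithinAt
  have hhalf : ball (0 : ℂ) (Y / 2) ⊆ ball 0 Y := ball_subset_ball (by linarith)
  have hm2 : (0 : ℂ) ∈ ball (0 : ℂ) (Y / 2) := mem_ball_self (by linarith)
  have hmaps : Set.MapsTo g (ball (0 : ℂ) (Y / 2)) (closedBall (g 0) (6 * Y)) := by
    intro w hw
    have h1 := Complex.borelCaratheodory_zero (by positivity) hgd hre hY0 (hhalf hw) hg0
    have hwn : ‖w‖ < Y / 2 := by simpa using hw
    rw [hg0, mem_closedBall_zero_iff]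
    refine h1.trans ?_
    rw [div_le_iff₀ (by linarith)]
    nlinarith
  have hgd2 := hgd.mono hhalf
  have hds : ∀ w ∈ ball (0 : ℂ) (Y / 2), ‖dslope g 0 w‖ ≤ 12 := by
    intro w hw
    refine (Complex.norm_dslope_le_div_of_mapsTo_ball hgd2 hmaps hw).trans ?_
    rw [div_le_iff₀ (by positivity)]; linarith
  have hd2 : DifferentiableOn ℂ (dslope g 0) (ball 0 (Y / 2)) :=
    (Complex.differentiableOn_dslope (isOpen_ball.mem_nhds hm2)).2 hgd2
  refine ⟨dslope g 0 0, hds 0 hm2, fun w hw => ⟨g w - dslope g 0 0 * w, ?_, ?_⟩⟩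
  · have h1 : Set.MapsTo (dslope g 0) (ball (0 : ℂ) (Y / 2))
        (closedBall (dslope g 0 0) 24) := by
      intro x hx
      rw [mem_closedBall, dist_eq_norm_sub]
      linarith [norm_sub_le (dslope g 0 x) (dslope g 0 0), hds x hx, hds 0 hm2]
    have h2 := Complex.dist_le_div_mul_dist_of_mapsTo_ball hd2 h1 hw
    rw [dist_eq_norm_sub, dist_zero_right] at h2
    have h3 : g w - dslope g 0 0 * w = w * (dslope g 0 w - dslope g 0 0) := by
      have := sub_smul_dslope g 0 w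
      simp only [sub_zero, smul_eq_mul, hg0] at this
      rw [← this]; ring
    rw [h3, norm_mul]
    refine (mul_le_mul_of_nonneg_left h2 (norm_nonneg w)).trans (le_of_eq ?_)
    field_simp
    ring
  · rw [add_sub_cancel, hfe w (hhalf hw)]

/-- Per-block parameters of a flat polynomial. -/
lemma Flat.block {N : ℕ} {c Y δ T : ℝ} {e : Fin N → Bool} (h : Flat c e) (hN : 0 < N)
    (hY : 1 ≤ Y) (hc0 : 0 ≤ c) (hc1 : c ≤ 1 / 2) (hcY : 3 * c < Real.exp (-Y))
    (hT : T < Y / 2) (hδ : δ ≤ 1) (hδT : 48 * T ^ 2 / Y ≤ δ) {a : ℂ} (ha : ‖a‖ = 1) :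
    ∃ b : ℂ, ‖b‖ ≤ 12 ∧ ∀ t : ℝ, 0 ≤ t → t ≤ T →
      ‖pol e (a * exp (I * t / N)) / (Real.sqrt N : ℂ)
        - pol e a / (Real.sqrt N : ℂ) * exp (b * t)‖ ≤ 4 * δ := by
  have hs : 0 < Real.sqrt N := Real.sqrt_pos.2 (by exact_mod_cast hN)
  set f : ℂ → ℂ := fun w => pol e (a * exp (I * w / N)) / (Real.sqrt N : ℂ) with hf
  have hfd : Differentiable ℂ f :=
    ((differentiable_pol e).comp (((differentiable_id.const_mul I).div_const _).cexp.const_mul a)
      ).div_const _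
  have hnz : ∀ w : ℂ, ‖a * exp (I * w / N)‖ ^ N = Real.exp (-w.im) := by
    intro w
    rw [norm_mul, ha, one_mul, Complex.norm_exp, ← Real.exp_nat_mul]
    congr 1
    have : (I * w / N).re = -w.im / N := by simp
    rw [this]
    have : (N : ℝ) ≠ 0 := by exact_mod_cast hN.ne'
    field_simp
  have hstrip : ∀ w ∈ ball (0 : ℂ) Y, f w ≠ 0 ∧ ‖f w‖ ≤ Real.exp (2 * Y) := by
    intro w hw
    have hw' : |w.im| < Y := (Complex.abs_im_le_norm w).trans_lt (by simpa using hw)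
    obtain ⟨h1, h2⟩ := h.strip hN (by linarith : (0:ℝ) ≤ Y) hc0 (by linarith) hcY
      (z := a * exp (I * w / N))
      (by rw [hnz]; exact Real.exp_le_exp.2 (by linarith [abs_lt.1 hw']))
      (by rw [hnz]; exact Real.exp_le_exp.2 (by linarith [abs_lt.1 hw']))
    refine ⟨div_ne_zero h1 (by exact_mod_cast hs.ne'), ?_⟩
    rw [hf, norm_div, Complex.norm_real, Real.norm_eq_abs, abs_of_pos hs, div_le_iff₀ hs]
    refine h2.trans ?_
    have h3 : Real.exp (2 * Y) = Real.exp Y * Real.exp Y := by rw [← Real.exp_add]; ring_nf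
    have h4 : 2 ≤ Real.exp Y := by linarith [Real.add_one_le_exp Y]
    rw [h3]
    nlinarith [mul_pos hs (Real.exp_pos Y), mul_nonneg hs.le (Real.exp_nonneg Y)]
  have hcirc : ∀ t : ℝ, 1 / 2 ≤ ‖f t‖ ∧ ‖f t‖ ≤ 2 := by
    intro t
    have h1 : ‖a * exp (I * t / N)‖ = 1 := by
      rw [norm_mul, ha, Complex.norm_exp]; simp
    obtain ⟨hl, hu⟩ := h.bounds hN h1
    rw [hf, norm_div, Complex.norm_real, Real.norm_eq_abs, abs_of_pos hs, le_div_iff₀ hs,
      div_le_iff₀ hs]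
    constructor <;> nlinarith
  have hf0 : f 0 = pol e a / (Real.sqrt N : ℂ) := by simp [hf]
  obtain ⟨b, hb, hloc⟩ := exists_slope hY hfd.differentiableOn (fun w hw => (hstrip w hw).1)
    (fun w hw => (hstrip w hw).2) (by simpa using (hcirc 0).1)
  refine ⟨b, hb, fun t ht0 htT => ?_⟩
  have htn : ‖(t : ℂ)‖ = t := by rw [Complex.norm_real, Real.norm_eq_abs, abs_of_nonneg ht0]
  obtain ⟨r, hr, heq⟩ := hloc t (by rw [mem_ball_zero_iff, htn]; linarith)
  rw [htn] at hr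
  have hr' : ‖r‖ ≤ δ := by
    refine hr.trans (le_trans ?_ hδT)
    gcongr
  rw [← hf0, show pol e (a * exp (I * t / N)) / (Real.sqrt N : ℂ) = f t from rfl]
  have hval : f t - f 0 * exp (b * t) = -(f t * (exp (-r) - 1)) := by
    have : f t * exp (-r) = f 0 * exp (b * t) := by
      rw [heq, mul_assoc, ← Complex.exp_add]; ring_nf
    rw [mul_sub, this]; ring
  rw [hval, norm_neg, norm_mul]
  have h1 : ‖exp (-r) - 1‖ ≤ 2 * δ :=
    (Complex.norm_exp_sub_one_le (by rw [norm_neg]; linarith)).trans (by rw [norm_neg]; linarith)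
  calc ‖f t‖ * ‖exp (-r) - 1‖ ≤ 2 * (2 * δ) :=
        mul_le_mul (hcirc t).2 h1 (norm_nonneg _) (by norm_num)
    _ = _ := by ring

end Vale.Agent.P110
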